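import Vale.Agent.P017.R3.Sys

/-!
# P017, density project: split of the assembly (B13)

`StmtA`: the inequality for regular `d`.  `StmtB`: choice of the parameters, irregular `d`.
-/

open Finset

namespace Vale.Agent.P017.R3.H420

/-- the prime factors of `d` above `z`, in increasing order -/
noncomputable def rl (z : ℝ) (d : ℕ) : List ℕ :=
  (d.primeFactors.filter (fun p : ℕ => z < p)).sort (· ≤ ·)

/-- their boxes and their classes modulo `4` -/
noncomputable def ks (l z : ℝ) (d : ℕ) : List (ℕ × ℕ) := (rl z d).map fun p => (bi l p, p % 4)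

/-- regular `d` (cutoff `z = l ^ J`) -/
structure RegD (S : Sys) (l : ℝ) (J T : ℕ) (η₁ : ℝ) (X d : ℕ) : Prop where
  box : ((ks l (l ^ J) d).map Prod.fst).Pairwise (· < ·)
  ne : ks l (l ^ J) d ≠ []
  len : (ks l (l ^ J) d).length ≤ T
  up : (smp (l ^ J) d : ℝ) * ((ks l (l ^ J) d).map (fun b => l ^ (b.1 + 1))).prod ≤ X
  ff : η₁ ≤ S.f ((ks l (l ^ J) d).dropLast.map (fun c => eps c.2)) (smp (l ^ J) d)

open Classical in
/-- the denominators -/
noncomputable def Den (S : Sys) (X : ℕ) : Finset ℕ :=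
  (Icc 1 X).filter (fun d => Squarefree d ∧ d % 4 = 3 ∧ S.OK d)

open Classical in
/-- number of bad prefixes of `d` -/
noncomputable def BadN (l δ z : ℝ) (d : ℕ) : ℕ :=
  (d.primeFactors.filter (fun q : ℕ => z < q ∧
      (∀ p ∈ d.primeFactors, p < q → (p : ℝ) ≤ l ^ bi l q) ∧
      Bad l δ (bi l q) (q % 4) (Nat.lcm (∏ p ∈ d.primeFactors.filter (· < q), p) 15))).card

/-- the sum of `StmtEx` -/
noncomputable def BadS (l δ z : ℝ) (X : ℕ) : ℝ :=
  ∑ d ∈ (Icc 1 X).filter (fun d => Squarefree d ∧ Odd d), (BadN l δ z d : ℝ)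

open Classical in
/-- half (a) -/
def StmtA (S : Sys) : Prop := ∀ (l δ η₁ : ℝ) (J T X : ℕ), 1 < l → l ≤ 2 → 0 < δ → δ < 1 →
  0 ≤ η₁ → η₁ ≤ 1 → 5 ≤ l ^ J →
  η₁ * ((1 - δ) ^ T / (1 + δ)) * ((Den S X).filter (RegD S l J T η₁ X)).card ≤
    ((Den S X).filter S.Rd).card + 2 * BadS l δ (l ^ J) X

open Classical in
/-- half (b) -/
def StmtB (S : Sys) : Prop := ∀ η₁ δ : ℝ, 0 ≤ η₁ → η₁ < eta → 0 < δ → δ < 1 →
  ∃ (l δ' : ℝ) (T : ℕ), 1 < l ∧
  l ≤ 2 ∧ 0 < δ' ∧ δ' < 1 ∧ 1 - δ ≤ (1 - δ') ^ T / (1 + δ') ∧ ∃ X₀ : ℕ, ∀ X : ℕ, X₀ ≤ X →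
    ∃ J : ℕ, 5 ≤ l ^ J ∧
      (((Den S X).filter (fun d => ¬ RegD S l J T η₁ X d)).card : ℝ) ≤ δ * X ∧
      BadS l δ' (l ^ J) X ≤ δ * X

theorem eta_le_one : eta ≤ 1 := by
  refine le_trans (ciInf_le ⟨0, ?_⟩ 0) (by simp)
  rintro x ⟨k, rfl⟩
  refine Finset.prod_nonneg fun i _ => ?_
  have : (1 / 2 : ℝ) ^ (i + 1) ≤ 1 := pow_le_one₀ (by norm_num) (by norm_num)
  linarith

/-- assembly of the two halves -/
theorem stmtDens_of {S : Sys} (hA : StmtA S) (hB : StmtB S) : S.StmtDens := by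
  classical
  intro η δ hη hδ
  have hRed : ∀ X : ℕ, ((Icc 1 X).filter (fun d => Squarefree d ∧ d % 4 = 3 ∧ S.OK d ∧ S.Rd d)) =
      (Den S X).filter S.Rd := by
    intro X
    ext d
    simp only [Den, mem_filter]
    tauto
  rcases lt_or_ge η 0 with h0 | h0
  · refine ⟨0, fun X _ => ?_⟩
    have h1 : η * (((Icc 1 X).filter (fun d => Squarefree d ∧ d % 4 = 3 ∧ S.OK d)).card : ℝ) ≤ 0 :=
      mul_nonpos_of_nonpos_of_nonneg h0.le (by positivity)
    have h2 : 0 ≤ δ * (X : ℝ) := by positivity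
    have h3 : (0 : ℝ) ≤
        ((Icc 1 X).filter (fun d => Squarefree d ∧ d % 4 = 3 ∧ S.OK d ∧ S.Rd d)).card := by
      positivity
    linarith
  have e3 : η ≤ 1 := hη.le.trans eta_le_one
  set δ₁ : ℝ := min (1 / 2) (δ / 4) with hδ₁
  have hδ0 : 0 < δ₁ := lt_min (by norm_num) (by linarith)
  have hδ1 : δ₁ < 1 := lt_of_le_of_lt (min_le_left _ _) (by norm_num)
  have hδ2 : 4 * δ₁ ≤ δ := by
    have := min_le_right (1 / 2 : ℝ) (δ / 4)
    rw [← hδ₁] at this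
    linarith
  obtain ⟨l, δ', T, hl1, hl2, hd0, hd1, hT, X₀, hX₀⟩ := hB η δ₁ h0 hη hδ0 hδ1
  refine ⟨X₀, fun X hX => ?_⟩
  obtain ⟨J, hJ, hirr, hbad⟩ := hX₀ X hX
  have key := hA l δ' η J T X hl1 hl2 hd0 hd1 h0 e3 hJ
  have hNX : ((Den S X).card : ℝ) ≤ X := by
    have h1 : (Den S X).card ≤ (Icc 1 X).card := card_filter_le _ _
    rw [Nat.card_Icc, Nat.add_sub_cancel] at h1
    exact_mod_cast h1
  have hsplit : ((Den S X).card : ℝ) = ((Den S X).filter (RegD S l J T η X)).card +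
      ((Den S X).filter (fun d => ¬ RegD S l J T η X d)).card := by
    rw [← Finset.card_filter_add_card_filter_not (s := Den S X) (RegD S l J T η X)]
    push_cast
    rfl
  have goal' : η * ((Den S X).card : ℝ) - δ * X ≤ ((Den S X).filter S.Rd).card := by
    set N : ℝ := ((Den S X).card : ℝ) with hNN
    set R : ℝ := (((Den S X).filter (RegD S l J T η X)).card : ℝ) with hR
    have hR0 : 0 ≤ R := by rw [hR]; positivity
    have hRN : N - δ₁ * X ≤ R := by linarith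
    have hX0 : (0 : ℝ) ≤ X := by positivity
    have h1 : η * (1 - δ₁) * R ≤ η * ((1 - δ') ^ T / (1 + δ')) * R :=
      mul_le_mul_of_nonneg_right (mul_le_mul_of_nonneg_left hT h0) hR0
    have h2 : η * (1 - δ₁) * (N - δ₁ * X) ≤ η * (1 - δ₁) * R :=
      mul_le_mul_of_nonneg_left hRN (mul_nonneg h0 (by linarith))
    have h3 : η * (1 - δ₁) * (δ₁ * X) ≤ δ₁ * X := by
      refine mul_le_of_le_one_left (by positivity) ?_
      calc η * (1 - δ₁) ≤ 1 * 1 := mul_le_mul e3 (by linarith) (by linarith) (by norm_num)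
        _ = 1 := by norm_num
    have h4 : η * δ₁ * N ≤ δ₁ * X := by
      have : η * N ≤ 1 * X := mul_le_mul e3 hNX (by rw [hNN]; positivity) (by norm_num)
      nlinarith
    have h5 : 4 * δ₁ * X ≤ δ * X := mul_le_mul_of_nonneg_right hδ2 hX0
    nlinarith
  have hDen : ((Icc 1 X).filter (fun d => Squarefree d ∧ d % 4 = 3 ∧ S.OK d)) = Den S X := rfl
  rw [hRed, hDen]
  exact goal'

end Vale.Agent.P017.R3.H420
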