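import Vale.Agent.P017.R3.H420.Asm0

/-!
# P017, density project: tuples of primes in boxes and keys
-/

open Finset

namespace Vale.Agent.P017.R3.H420

/-! ### Boxes -/

theorem bi_spec {l : ℝ} (hl : 1 < l) {q : ℕ} (hq : 1 < q) :
    l ^ bi l q < q ∧ (q : ℝ) ≤ l ^ (bi l q + 1) := by
  have hq' : (1 : ℝ) < q := by exact_mod_cast hq
  have hq0 : (0 : ℝ) < q := by linarith
  have hx : 0 < Real.logb l q := Real.logb_pos hl hq'
  have hc : 1 ≤ ⌈Real.logb l q⌉₊ := Nat.one_le_iff_ne_zero.mpr (by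
    rw [Ne, Nat.ceil_eq_zero]; linarith)
  have e : bi l q + 1 = ⌈Real.logb l q⌉₊ := by unfold bi; omega
  constructor
  · have : bi l q < ⌈Real.logb l q⌉₊ := by omega
    rw [Nat.lt_ceil, Real.lt_logb_iff_rpow_lt hl hq0, Real.rpow_natCast] at this
    exact this
  · have := Nat.le_ceil (Real.logb l q)
    rw [← e, Real.logb_le_iff_le_rpow hl hq0, Real.rpow_natCast] at this
    exact this

theorem bi_eq {l : ℝ} (hl : 1 < l) {q j : ℕ} (h1 : l ^ j < q) (h2 : (q : ℝ) ≤ l ^ (j + 1)) :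
    bi l q = j := by
  have hq' : 1 < q := by
    have : (1 : ℝ) ≤ l ^ j := one_le_pow₀ hl.le
    have : (1 : ℝ) < q := by linarith
    exact_mod_cast this
  obtain ⟨h3, h4⟩ := bi_spec hl hq'
  have a1 : l ^ bi l q < l ^ (j + 1) := lt_of_lt_of_le h3 h2
  have a2 : l ^ j < l ^ (bi l q + 1) := lt_of_lt_of_le h1 h4
  have b1 := (pow_lt_pow_iff_right₀ hl).mp a1
  have b2 := (pow_lt_pow_iff_right₀ hl).mp a2
  omega

theorem mem_Bx {l : ℝ} (hl : 1 < l) {j e p : ℕ} :
    p ∈ Bx l j e ↔ l ^ j < p ∧ (p : ℝ) ≤ l ^ (j + 1) ∧ p.Prime ∧ p % 4 = e := by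
  have h0 : (0 : ℝ) ≤ l ^ j := by positivity
  have h1 : (0 : ℝ) ≤ l ^ (j + 1) := by positivity
  unfold Bx
  rw [mem_filter, mem_Ioc, Nat.floor_lt h0, Nat.le_floor_iff h1]
  tauto

/-! ### Tuples -/

/-- tuples of primes in the boxes -/
noncomputable def TT (l : ℝ) : List (ℕ × ℕ) → Finset (List ℕ)
  | [] => {[]}
  | b :: bs => ((Bx l b.1 b.2) ×ˢ TT l bs).image (fun x => x.1 :: x.2)

theorem sum_TT_cons {M : Type*} [AddCommMonoid M] (l : ℝ) (b : ℕ × ℕ) (bs : List (ℕ × ℕ))
    (f : List ℕ → M) :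
    ∑ ps ∈ TT l (b :: bs), f ps = ∑ p ∈ Bx l b.1 b.2, ∑ ps ∈ TT l bs, f (p :: ps) := by
  rw [TT, sum_image, sum_product]
  rintro ⟨x, xs⟩ - ⟨y, ys⟩ - h
  simp only [List.cons.injEq] at h
  simp [h.1, h.2]

theorem mem_TT {l : ℝ} : ∀ (bs : List (ℕ × ℕ)) (ps : List ℕ), ps ∈ TT l bs ↔
    List.Forall₂ (fun p b => p ∈ Bx l b.1 b.2) ps bs
  | [], ps => by
    rw [TT, mem_singleton, List.forall₂_nil_right_iff]
  | b :: bs, ps => by
    rw [TT, mem_image]
    constructor
    · rintro ⟨⟨x, xs⟩, hx, rfl⟩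
      rw [mem_product] at hx
      exact List.Forall₂.cons hx.1 ((mem_TT bs xs).mp hx.2)
    · intro h
      cases h with
      | cons h1 h2 =>
        exact ⟨(_, _), mem_product.mpr ⟨h1, (mem_TT bs _).mpr h2⟩, rfl⟩

theorem tot_eq (S : Sys) (l : ℝ) : ∀ (bs : List (ℕ × ℕ)) (n : ℕ), (S.Tot l bs n : ℕ) =
    by classical exact ((TT l bs).filter (fun ps => S.OK (n * ps.prod))).card
  | [], n => by
    classical
    rw [card_filter, TT, sum_singleton, List.prod_nil, mul_one, Sys.Tot]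
  | b :: bs, n => by
    classical
    rw [card_filter, sum_TT_cons, Sys.Tot]
    refine sum_congr rfl fun p _ => ?_
    rw [tot_eq S l bs (n * p), card_filter]
    refine sum_congr rfl fun ps _ => ?_
    rw [List.prod_cons, mul_assoc]

theorem cnt_eq (S : Sys) (l : ℝ) : ∀ (bs : List (ℕ × ℕ)) (n : ℕ), (S.Cnt l bs n : ℕ) =
    by classical exact
      ((TT l bs).filter (fun ps => S.OK (n * ps.prod) ∧ S.Rd (n * ps.prod))).card
  | [], n => by
    classical
    rw [card_filter, TT, sum_singleton, List.prod_nil, mul_one, Sys.Cnt]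
  | b :: bs, n => by
    classical
    rw [card_filter, sum_TT_cons, Sys.Cnt]
    refine sum_congr rfl fun p _ => ?_
    rw [cnt_eq S l bs (n * p), card_filter]
    refine sum_congr rfl fun ps _ => ?_
    rw [List.prod_cons, mul_assoc]

theorem all_eq (l : ℝ) : ∀ (bs : List (ℕ × ℕ)), (All l bs : ℕ) = (TT l bs).card
  | [] => by rw [TT, All, card_singleton]
  | b :: bs => by
    rw [card_eq_sum_ones, sum_TT_cons, All, all_eq l bs]
    simp

open Classical in
/-- number of bad prefixes of a tuple -/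
noncomputable def wt (l δ : ℝ) : List (ℕ × ℕ) → ℕ → List ℕ → ℕ
  | b :: bs, n, p :: ps => (if Bad l δ b.1 b.2 (Nat.lcm n 15) then 1 else 0) + wt l δ bs (n * p) ps
  | _, _, _ => 0

theorem exw_eq (l δ : ℝ) : ∀ (bs : List (ℕ × ℕ)) (n : ℕ), ExW l δ bs n =
    ∑ ps ∈ TT l bs, wt l δ bs n ps
  | [], n => by rw [TT, sum_singleton, ExW, wt]; simp
  | b :: bs, n => by
    classical
    rw [sum_TT_cons, ExW]
    have : ∀ p ∈ Bx l b.1 b.2, ∑ ps ∈ TT l bs, wt l δ (b :: bs) n (p :: ps) =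
        (if Bad l δ b.1 b.2 (Nat.lcm n 15) then All l bs else 0) + ExW l δ bs (n * p) := by
      intro p _
      rw [exw_eq l δ bs (n * p), all_eq]
      simp only [wt, sum_add_distrib]
      congr 1
      split_ifs <;> simp
    rw [sum_congr rfl this, sum_add_distrib]
    congr 1
    rw [sum_const, smul_eq_mul, All]
    split_ifs <;> simp

/-! ### Structure of the tuples -/

section
variable {l : ℝ} (hl : 1 < l)
include hl

/-- increasing boxes: increasing primes -/
theorem tuple_lt : ∀ {bs : List (ℕ × ℕ)} {ps : List ℕ},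
    List.Forall₂ (fun p b => p ∈ Bx l b.1 b.2) ps bs → (bs.map Prod.fst).Pairwise (· < ·) →
    ps.Pairwise (· < ·) ∧ ∀ j : ℕ, (∀ b ∈ bs, j ≤ b.1) → ∀ p ∈ ps, l ^ j < (p : ℝ)
  | [], _, h, _ => by cases h; simp
  | b :: bs, _, h, hp => by
    cases h with
    | @cons p _ ps _ h1 h2 =>
      rw [List.map_cons, List.pairwise_cons] at hp
      obtain ⟨ih1, ih2⟩ := tuple_lt h2 hp.2
      have hb := (mem_Bx hl).mp h1
      refine ⟨List.pairwise_cons.mpr ⟨fun q hq => ?_, ih1⟩, fun j hj q hq => ?_⟩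
      · have h3 := ih2 (b.1 + 1) (fun c hc => hp.1 c.1 (List.mem_map_of_mem hc)) q hq
        have : (p : ℝ) < q := lt_of_le_of_lt hb.2.1 h3
        exact_mod_cast this
      · rcases List.mem_cons.mp hq with rfl | hq
        · exact lt_of_le_of_lt (pow_le_pow_right₀ hl.le (hj b List.mem_cons_self)) hb.1
        · exact ih2 j (fun c hc => hj c (List.mem_cons_of_mem _ hc)) q hq

theorem tuple_prime {bs : List (ℕ × ℕ)} {ps : List ℕ}
    (h : List.Forall₂ (fun p b => p ∈ Bx l b.1 b.2) ps bs) : ∀ p ∈ ps, p.Prime := by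
  induction h with
  | nil => simp
  | cons h1 _ ih =>
    intro p hp
    rcases List.mem_cons.mp hp with rfl | hp
    · exact ((mem_Bx hl).mp h1).2.2.1
    · exact ih p hp

theorem tuple_ks {bs : List (ℕ × ℕ)} {ps : List ℕ}
    (h : List.Forall₂ (fun p b => p ∈ Bx l b.1 b.2) ps bs) :
    ps.map (fun p => (bi l p, p % 4)) = bs := by
  induction h with
  | nil => rfl
  | cons h1 _ ih =>
    rw [List.map_cons, ih]
    obtain ⟨a1, a2, -, a4⟩ := (mem_Bx hl).mp h1
    rw [bi_eq hl a1 a2, a4]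

theorem tuple_le {bs : List (ℕ × ℕ)} {ps : List ℕ}
    (h : List.Forall₂ (fun p b => p ∈ Bx l b.1 b.2) ps bs) :
    (ps.prod : ℝ) ≤ (bs.map (fun b => l ^ (b.1 + 1))).prod := by
  induction h with
  | nil => simp
  | @cons p b ps bs h1 _ ih =>
    rw [List.prod_cons, List.map_cons, List.prod_cons, Nat.cast_mul]
    exact mul_le_mul ((mem_Bx hl).mp h1).2.1 ih (by positivity) (by positivity)

end

/-- squarefreeness and prime factors of `m` times a product of larger distinct primes -/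
theorem prod_struct : ∀ (ps : List ℕ) (m : ℕ), Squarefree m → (∀ p ∈ ps, p.Prime) →
    ps.Pairwise (· < ·) → (∀ p ∈ ps, ∀ q ∈ m.primeFactors, q < p) →
    Squarefree (m * ps.prod) ∧ (m * ps.prod).primeFactors = m.primeFactors ∪ ps.toFinset
  | [], m, hm, _, _, _ => by simp [hm]
  | p :: ps, m, hm, hpr, hs, hlt => by
    rw [List.pairwise_cons] at hs
    have hp : p.Prime := hpr p List.mem_cons_self
    have hpm : ¬ p ∣ m := fun h => by
      have := hlt p List.mem_cons_self p (Nat.mem_primeFactors.mpr ⟨hp, h, hm.ne_zero⟩)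
      omega
    have hmp : Squarefree (m * p) :=
      (Nat.squarefree_mul_iff).mpr ⟨(Nat.Coprime.symm ((Nat.Prime.coprime_iff_not_dvd hp).mpr hpm)),
        hm, hp.squarefree⟩
    have hpf : (m * p).primeFactors = m.primeFactors ∪ {p} := by
      rw [Nat.primeFactors_mul hm.ne_zero hp.ne_zero, Nat.Prime.primeFactors hp]
    obtain ⟨h1, h2⟩ := prod_struct ps (m * p) hmp (fun q hq => hpr q (List.mem_cons_of_mem _ hq))
      hs.2 (fun q hq r hr => by
        rw [hpf, mem_union, mem_singleton] at hr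
        rcases hr with hr | rfl
        · exact hlt q (List.mem_cons_of_mem _ hq) r hr
        · exact hs.1 q hq)
    rw [List.prod_cons, ← mul_assoc]
    refine ⟨h1, ?_⟩
    rw [h2, hpf]
    ext q
    simp only [mem_union, mem_singleton, List.mem_toFinset, List.mem_cons]
    tauto

end Vale.Agent.P017.R3.H420
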