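import Vale.Agent.P017.R3.H420.Asm1

/-!
# P017, density project: keys and the inequality for regular `d`
-/

open Finset

namespace Vale.Agent.P017.R3.H420

/-! ### Keys -/

theorem mem_rl {z : ℝ} {d p : ℕ} : p ∈ rl z d ↔ p ∈ d.primeFactors ∧ z < p := by
  unfold rl
  rw [Finset.mem_sort, mem_filter]

theorem rl_prod (z : ℝ) (d : ℕ) :
    (rl z d).prod = ∏ p ∈ d.primeFactors.filter (fun p : ℕ => z < p), p := by
  have h : (rl z d).toFinset = d.primeFactors.filter (fun p : ℕ => z < p) := by
    unfold rl; exact Finset.sort_toFinset _ _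
  rw [← h, List.prod_toFinset _ (by unfold rl; exact Finset.sort_nodup _ _), List.map_id']

theorem smp_mul {z : ℝ} {d : ℕ} (hd : Squarefree d) : smp z d * (rl z d).prod = d := by
  rw [rl_prod, smp]
  have := Finset.prod_filter_mul_prod_filter_not d.primeFactors (fun p : ℕ => (p : ℝ) ≤ z)
    (fun p => p)
  simp only [not_le] at this
  rw [this]
  exact Nat.prod_primeFactors_of_squarefree hd

theorem smp_dvd {z : ℝ} {d : ℕ} (hd : Squarefree d) : smp z d ∣ d :=
  ⟨_, (smp_mul hd).symm⟩

theorem smp_pf {z : ℝ} {d q : ℕ} (hq : q ∈ (smp z d).primeFactors) : (q : ℝ) ≤ z := by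
  obtain ⟨h1, h2, -⟩ := Nat.mem_primeFactors.mp hq
  unfold smp at h2
  rw [Prime.dvd_finsetProd_iff h1.prime] at h2
  obtain ⟨p, hp, hqp⟩ := h2
  rw [mem_filter] at hp
  have := (Nat.prime_dvd_prime_iff_eq h1 (Nat.prime_of_mem_primeFactors hp.1)).mp hqp
  rw [this]
  exact hp.2

section
variable {l : ℝ} (hl : 1 < l)
include hl

theorem rl_mem {z : ℝ} {d : ℕ} : List.Forall₂ (fun p b => p ∈ Bx l b.1 b.2) (rl z d) (ks l z d) := by
  unfold ks
  have : ∀ ps : List ℕ, (∀ p ∈ ps, p.Prime) →
      List.Forall₂ (fun p b => p ∈ Bx l b.1 b.2) ps (ps.map fun p => (bi l p, p % 4)) := by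
    intro ps
    induction ps with
    | nil => intro _; exact List.Forall₂.nil
    | cons p ps ih =>
      intro h
      have hp := h p List.mem_cons_self
      refine List.Forall₂.cons ?_ (ih fun q hq => h q (List.mem_cons_of_mem _ hq))
      obtain ⟨a, b⟩ := bi_spec hl hp.one_lt
      exact (mem_Bx hl).mpr ⟨a, b, hp, rfl⟩
  exact this _ fun p hp => Nat.prime_of_mem_primeFactors (mem_rl.mp hp).1

/-- the key of a tuple -/
theorem key_tuple {J m : ℕ} (hm : Squarefree m) (hmz : ∀ q ∈ m.primeFactors, (q : ℝ) ≤ l ^ J)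
    {bs : List (ℕ × ℕ)} {ps : List ℕ} (h : List.Forall₂ (fun p b => p ∈ Bx l b.1 b.2) ps bs)
    (hbs : (bs.map Prod.fst).Pairwise (· < ·)) (hJ : ∀ b ∈ bs, J ≤ b.1) :
    Squarefree (m * ps.prod) ∧ (m * ps.prod).primeFactors = m.primeFactors ∪ ps.toFinset ∧
      rl (l ^ J) (m * ps.prod) = ps ∧ smp (l ^ J) (m * ps.prod) = m ∧
      ks l (l ^ J) (m * ps.prod) = bs := by
  obtain ⟨h1, h2⟩ := tuple_lt hl h hbs
  have h3 := h2 J hJ
  have hpr := tuple_prime hl h
  obtain ⟨a1, a2⟩ := prod_struct ps m hm hpr h1 (fun p hp q hq => by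
    have := lt_of_le_of_lt (hmz q hq) (h3 p hp)
    exact_mod_cast this)
  have a3 : rl (l ^ J) (m * ps.prod) = ps := by
    unfold rl
    have : (m * ps.prod).primeFactors.filter (fun p : ℕ => l ^ J < (p : ℝ)) = ps.toFinset := by
      rw [a2]
      ext q
      simp only [mem_filter, mem_union, List.mem_toFinset]
      constructor
      · rintro ⟨h | h, h'⟩
        · exact absurd (hmz q h) (not_le.mpr h')
        · exact h
      · exact fun h => ⟨Or.inr h, h3 q h⟩
    rw [this]
    exact (List.toFinset_sort (· ≤ ·) (h1.imp (fun h => h.ne))).mpr (h1.imp (fun h => h.le))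
  have a4 : smp (l ^ J) (m * ps.prod) = m := by
    have b1 := smp_mul (z := l ^ J) a1
    rw [a3] at b1
    exact Nat.eq_of_mul_eq_mul_right (Nat.pos_of_ne_zero fun h0 => by
      rw [h0, mul_zero] at a1; exact not_squarefree_zero a1) b1
  refine ⟨a1, a2, a3, a4, ?_⟩
  unfold ks
  rw [a3]
  exact tuple_ks hl h

open Classical in
/-- bad prefixes of a tuple and of the integer -/
theorem wt_eq (δ : ℝ) : ∀ {bs : List (ℕ × ℕ)} {ps : List ℕ} {n : ℕ}, Squarefree n →
    List.Forall₂ (fun p b => p ∈ Bx l b.1 b.2) ps bs → (bs.map Prod.fst).Pairwise (· < ·) →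
    (∀ b ∈ bs, ∀ q ∈ n.primeFactors, (q : ℝ) ≤ l ^ b.1) →
    wt l δ bs n ps = (ps.map fun q => if Bad l δ (bi l q) (q % 4)
      (Nat.lcm (∏ p ∈ (n * ps.prod).primeFactors.filter (· < q), p) 15) then 1 else 0).sum
  | [], _, n, _, h, _, _ => by cases h; simp [wt]
  | b :: bs, _, n, hn, h, hp, hz => by
    cases h with
    | @cons p _ ps _ h1 h2 =>
      have hkey := key_tuple hl hn (hz b List.mem_cons_self) (List.Forall₂.cons h1 h2) hp
        (fun c hc => by
          rcases List.mem_cons.mp hc with rfl | hc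
          · exact le_rfl
          · rw [List.map_cons, List.pairwise_cons] at hp
            exact (hp.1 _ (List.mem_map_of_mem hc)).le)
      have hlt := (tuple_lt hl (List.Forall₂.cons h1 h2) hp).1
      rw [List.pairwise_cons] at hlt
      rw [List.map_cons, List.pairwise_cons] at hp
      obtain ⟨c1, c2, c3, c4⟩ := (mem_Bx hl).mp h1
      have hpn : ∀ q ∈ n.primeFactors, q < p := fun q hq => by
        have := lt_of_le_of_lt (hz b List.mem_cons_self q hq) c1
        exact_mod_cast this
      obtain ⟨s1, s2⟩ := prod_struct [p] n hn (by simpa using c3) (by simp)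
        (by simpa using hpn)
      simp only [List.prod_cons, List.prod_nil, mul_one] at s1 s2
      have ih := wt_eq δ s1 h2 hp.2 (fun c hc q hq => by
        rw [s2, mem_union] at hq
        have hbc := hp.1 _ (List.mem_map_of_mem hc)
        rcases hq with hq | hq
        · exact (hz b List.mem_cons_self q hq).trans (pow_le_pow_right₀ hl.le hbc.le)
        · simp only [List.mem_toFinset, List.mem_singleton] at hq
          rw [hq]
          exact c2.trans (pow_le_pow_right₀ hl.le hbc))
      rw [wt, ih, List.map_cons, List.sum_cons, List.prod_cons, mul_assoc]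
      congr 1
      have hb : bi l p = b.1 := bi_eq hl c1 c2
      have hprod : ∏ q ∈ (n * (p * ps.prod)).primeFactors.filter (· < p), q = n := by
        have hf : (n * (p * ps.prod)).primeFactors.filter (· < p) = n.primeFactors := by
          have := hkey.2.1
          rw [List.prod_cons] at this
          rw [this]
          ext q
          simp only [mem_filter, mem_union, List.mem_toFinset, List.mem_cons]
          constructor
          · rintro ⟨h | h | h, h'⟩
            · exact h
            · omega
            · have := hlt.1 q h; omega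
          · exact fun h => ⟨Or.inl h, hpn q h⟩
        rw [hf]
        exact Nat.prod_primeFactors_of_squarefree hn
      rw [hprod, hb, c4]

theorem wt_le (δ : ℝ) {J m : ℕ} (hm : Squarefree m)
    (hmz : ∀ q ∈ m.primeFactors, (q : ℝ) ≤ l ^ J)
    {bs : List (ℕ × ℕ)} {ps : List ℕ} (h : List.Forall₂ (fun p b => p ∈ Bx l b.1 b.2) ps bs)
    (hbs : (bs.map Prod.fst).Pairwise (· < ·)) (hJ : ∀ b ∈ bs, J ≤ b.1) :
    wt l δ bs m ps ≤ BadN l δ (l ^ J) (m * ps.prod) := by
  classical
  obtain ⟨k1, k2, k3, k4, k5⟩ := key_tuple hl hm hmz h hbs hJ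
  obtain ⟨h1, h2⟩ := tuple_lt hl h hbs
  have h3 := h2 J hJ
  rw [wt_eq hl δ hm h hbs (fun b hb q hq => (hmz q hq).trans (pow_le_pow_right₀ hl.le (hJ b hb))),
    ← List.sum_toFinset _ (h1.imp (fun h => h.ne)), ← card_filter]
  unfold BadN
  refine card_le_card fun q hq => ?_
  rw [mem_filter, List.mem_toFinset] at hq
  rw [mem_filter]
  refine ⟨?_, h3 q hq.1, ?_, hq.2⟩
  · rw [k2, mem_union, List.mem_toFinset]; exact Or.inr hq.1
  · intro p hp hpq
    have hqb := bi_spec hl (tuple_prime hl h q hq.1).one_lt
    rw [k2, mem_union, List.mem_toFinset] at hp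
    rcases hp with hp | hp
    · refine (hmz p hp).trans (pow_le_pow_right₀ hl.le ?_)
      have : l ^ J < l ^ (bi l q + 1) := lt_of_lt_of_le (h3 q hq.1) hqb.2
      have := (pow_lt_pow_iff_right₀ hl).mp this
      omega
    · -- the boxes of `p < q` are distinct
      have hpb := bi_spec hl (tuple_prime hl h p hp).one_lt
      have hbox : bi l p < bi l q := by
        have e1 : (ps.map (bi l)).Pairwise (· < ·) := by
          have : ps.map (bi l) = bs.map Prod.fst := by
            rw [← tuple_ks hl h, List.map_map]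
            rfl
          rw [this]; exact hbs
        rw [List.pairwise_map] at e1
        have e2 := (h1.and e1)
        have e3 : ps.Pairwise (fun a b => a < b → bi l a < bi l b) :=
          e2.imp (fun h _ => h.2)
        by_contra hcon
        rw [not_lt] at hcon
        -- compare the positions
        rcases List.pairwise_iff_getElem.mp e1 with e4
        obtain ⟨i, hi, rfl⟩ := List.getElem_of_mem hp
        obtain ⟨j, hj, rfl⟩ := List.getElem_of_mem hq.1
        rcases lt_trichotomy i j with hij | hij | hij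
        · exact absurd (e4 i j hi hj hij) (not_lt.mpr hcon)
        · subst hij; omega
        · have := List.pairwise_iff_getElem.mp h1 j i hj hi hij
          omega
      exact hpb.2.trans (pow_le_pow_right₀ hl.le hbox)

end

end Vale.Agent.P017.R3.H420
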