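import Vale.Agent.P017.R3.H420.Asm2

/-!
# P017, density project: the inequality for regular `d`
-/

open Finset

namespace Vale.Agent.P017.R3.H420

theorem sum_fiber_le {K : Type*} [DecidableEq K] (S : Finset ℕ) (𝒦 : Finset K) (key : ℕ → K)
    (f : ℕ → ℕ) : ∑ κ ∈ 𝒦, ∑ d ∈ S.filter (fun d => key d = κ), f d ≤ ∑ d ∈ S, f d := by
  simp_rw [sum_filter]
  rw [sum_comm]
  refine sum_le_sum fun d _ => ?_
  rw [Finset.sum_ite_eq]
  split_ifs
  · exact le_rfl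
  · exact Nat.zero_le _

theorem prod_mod4 {ps qs : List ℕ} (h : ps.map (fun p => p % 4) = qs.map (fun p => p % 4)) :
    ps.prod % 4 = qs.prod % 4 := by
  rw [List.prod_nat_mod, h, ← List.prod_nat_mod]

/-- the inequality in one cell -/
theorem cell_ineq {S : Sys} {l δ η₁ : ℝ} {T : ℕ} (hl : 1 < l) (h0 : 0 < δ) (h1 : δ < 1) (he : 0 ≤ η₁)
    (he1 : η₁ ≤ 1) (hC : S.StmtCell) {bs : List (ℕ × ℕ)} {m : ℕ} (hne : bs ≠ [])
    (hbs : (bs.map Prod.fst).Pairwise (· < ·)) (hc : ∀ c ∈ bs, c.2 = 1 ∨ c.2 = 3)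
    (h5 : ∀ b ∈ bs, 5 ≤ l ^ b.1) (hm : Squarefree m) (hmo : Odd m)
    (hmz : ∀ b ∈ bs, ∀ p ∈ m.primeFactors, (p : ℝ) ≤ l ^ b.1) (hT : bs.length ≤ T)
    (hF : η₁ ≤ S.f (bs.dropLast.map (fun c => eps c.2)) m) :
    η₁ * ((1 - δ) ^ T / (1 + δ)) * (S.Tot l bs m : ℝ) ≤
      (S.Cnt l bs m : ℝ) + 2 * (ExW l δ bs m : ℝ) := by
  obtain ⟨b, bs, rfl⟩ := List.exists_cons_of_ne_nil hne
  obtain ⟨c1, c2⟩ := hC l δ hl h0 h1 b bs hbs hc (h5 b List.mem_cons_self) m hm hmo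
    (hmz b List.mem_cons_self)
  set A : ℝ := (All l (b :: bs) : ℝ) / 2 ^ S.fr m with hA
  set F : ℝ := S.f ((b :: bs).dropLast.map (fun c => eps c.2)) m with hF'
  set E : ℝ := (ExW l δ (b :: bs) m : ℝ) with hE
  have hA0 : 0 ≤ A := by rw [hA]; positivity
  have hE0 : 0 ≤ E := by rw [hE]; positivity
  have hd : (0 : ℝ) < 1 - δ := by linarith
  have hp : (1 - δ) ^ T ≤ (1 - δ) ^ (b :: bs).length := pow_le_pow_of_le_one hd.le (by linarith) hT
  have hpT0 : 0 ≤ (1 - δ) ^ T := by positivity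
  have hpT1 : (1 - δ) ^ T ≤ 1 := pow_le_one₀ hd.le (by linarith)
  set c₀ : ℝ := η₁ * ((1 - δ) ^ T / (1 + δ)) with hc₀
  have hc0 : 0 ≤ c₀ := by rw [hc₀]; positivity
  have hc1 : c₀ ≤ 1 := by
    rw [hc₀]
    have : (1 - δ) ^ T / (1 + δ) ≤ 1 := by
      rw [div_le_one (by linarith)]; linarith
    calc η₁ * ((1 - δ) ^ T / (1 + δ)) ≤ 1 * 1 := mul_le_mul he1 this (by positivity) (by norm_num)
      _ = 1 := by norm_num
  have k1 : c₀ * (S.Tot l (b :: bs) m : ℝ) ≤ c₀ * ((1 + δ) * A + E) :=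
    mul_le_mul_of_nonneg_left c2 hc0
  have k2 : c₀ * ((1 + δ) * A + E) = η₁ * (1 - δ) ^ T * A + c₀ * E := by
    rw [hc₀]; field_simp
  have k3 : η₁ * (1 - δ) ^ T * A ≤ (1 - δ) ^ (b :: bs).length * (F * A) := by
    have : η₁ * (1 - δ) ^ T ≤ F * (1 - δ) ^ (b :: bs).length :=
      mul_le_mul hF hp hpT0 (he.trans hF)
    calc η₁ * (1 - δ) ^ T * A ≤ F * (1 - δ) ^ (b :: bs).length * A :=
          mul_le_mul_of_nonneg_right this hA0
      _ = _ := by ring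
  have k4 : c₀ * E ≤ E := mul_le_of_le_one_left hE0 hc1
  linarith

theorem stmtA {S : Sys} (hC : S.StmtCell) : StmtA S := by
  classical
  intro l δ η₁ J T X hl hl2 h0 h1 he he1 h5
  set z : ℝ := l ^ J with hz
  set Reg : Finset ℕ := (Den S X).filter (RegD S l J T η₁ X) with hReg
  set Red : Finset ℕ := (Den S X).filter S.Rd with hRed
  set Od : Finset ℕ := (Icc 1 X).filter (fun d => Squarefree d ∧ Odd d) with hOd
  let key : ℕ → ℕ × List (ℕ × ℕ) := fun d => (smp z d, ks l z d)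
  set 𝒦 : Finset (ℕ × List (ℕ × ℕ)) := Reg.image key with h𝒦
  -- properties of the keys
  have hprop : ∀ κ ∈ 𝒦, Squarefree κ.1 ∧ Odd κ.1 ∧ (∀ q ∈ κ.1.primeFactors, (q : ℝ) ≤ z) ∧
      κ.2 ≠ [] ∧ (κ.2.map Prod.fst).Pairwise (· < ·) ∧ (∀ c ∈ κ.2, c.2 = 1 ∨ c.2 = 3) ∧
      (∀ c ∈ κ.2, J ≤ c.1) ∧ κ.2.length ≤ T ∧
      η₁ ≤ S.f (κ.2.dropLast.map (fun c => eps c.2)) κ.1 ∧
      (κ.1 : ℝ) * (κ.2.map (fun b => l ^ (b.1 + 1))).prod ≤ X ∧
      (∀ ps : List ℕ, List.Forall₂ (fun p b => p ∈ Bx l b.1 b.2) ps κ.2 →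
        (κ.1 * ps.prod) % 4 = 3) := by
    intro κ hκ
    rw [h𝒦, mem_image] at hκ
    obtain ⟨d, hd, rfl⟩ := hκ
    rw [hReg, mem_filter, Den, mem_filter] at hd
    obtain ⟨⟨hd1, hd2, hd3, hd4⟩, hR⟩ := hd
    have hodd : Odd d := by rw [Nat.odd_iff]; omega
    refine ⟨hd2.squarefree_of_dvd (smp_dvd hd2), hodd.of_dvd_nat (smp_dvd hd2),
      fun q hq => smp_pf hq, hR.ne, hR.box, ?_, ?_, hR.len, hR.ff, hR.up, ?_⟩
    · intro c hc
      simp only [key, ks, List.mem_map] at hc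
      obtain ⟨p, hp, rfl⟩ := hc
      have hpd := (mem_rl.mp hp).1
      have : Odd p := hodd.of_dvd_nat (Nat.dvd_of_mem_primeFactors hpd)
      rw [Nat.odd_iff] at this
      show p % 4 = 1 ∨ p % 4 = 3
      omega
    · intro c hc
      simp only [key, ks, List.mem_map] at hc
      obtain ⟨p, hp, rfl⟩ := hc
      obtain ⟨hpd, hpz⟩ := mem_rl.mp hp
      have := (bi_spec hl (Nat.prime_of_mem_primeFactors hpd).one_lt).2
      have h2 : l ^ J < l ^ (bi l p + 1) := lt_of_lt_of_le hpz this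
      have := (pow_lt_pow_iff_right₀ hl).mp h2
      show J ≤ bi l p
      omega
    · intro ps hps
      have e1 : ps.map (fun p => p % 4) = (rl z d).map (fun p => p % 4) := by
        have a1 := tuple_ks hl hps
        have a2 : (rl z d).map (fun p => (bi l p, p % 4)) = ks l z d := rfl
        have a3 : ps.map (fun p => (bi l p, p % 4)) =
            (rl z d).map (fun p => (bi l p, p % 4)) := by rw [a1, a2]
        have a4 := congrArg (List.map Prod.snd) a3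
        simpa [List.map_map, Function.comp_def] using a4
      show (smp z d * ps.prod) % 4 = 3
      rw [Nat.mul_mod, prod_mod4 e1, ← Nat.mul_mod, smp_mul hd2]
      exact hd3
  -- every regular `d` is counted
  have hTot : (Reg.card : ℝ) ≤ ∑ κ ∈ 𝒦, (S.Tot l κ.2 κ.1 : ℝ) := by
    have : Reg.card = ∑ κ ∈ 𝒦, (Reg.filter (fun d => key d = κ)).card := by
      rw [h𝒦]; exact card_eq_sum_card_image key Reg
    rw [this]
    push_cast
    refine sum_le_sum fun κ hκ => ?_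
    rw [tot_eq]
    norm_cast
    refine card_le_card_of_injOn (fun d => rl z d) ?_ ?_
    · intro d hd
      rw [Finset.mem_coe, mem_filter, hReg, mem_filter, Den, mem_filter] at hd
      obtain ⟨⟨⟨-, hd2, hd3, hd4⟩, -⟩, rfl⟩ := hd
      rw [Finset.mem_coe, mem_filter]
      refine ⟨(mem_TT _ _).mpr (rl_mem hl), ?_⟩
      show S.OK (smp z d * (rl z d).prod)
      rw [smp_mul hd2]; exact hd4
    · intro d hd d' hd' hdd
      rw [Finset.mem_coe, mem_filter, hReg, mem_filter, Den, mem_filter] at hd hd'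
      obtain ⟨⟨⟨-, hd2, -, -⟩, -⟩, hk⟩ := hd
      obtain ⟨⟨⟨-, hd2', -, -⟩, -⟩, hk'⟩ := hd'
      have e1 : smp z d = κ.1 := congrArg Prod.fst hk
      have e2 : smp z d' = κ.1 := congrArg Prod.fst hk'
      have e3 : rl z d = rl z d' := hdd
      rw [← smp_mul (z := z) hd2, ← smp_mul (z := z) hd2', e1, e2, e3]
  -- properties of the integers of a cell
  have hcell : ∀ κ ∈ 𝒦, ∀ ps ∈ TT l κ.2, Squarefree (κ.1 * ps.prod) ∧
      (κ.1 * ps.prod) % 4 = 3 ∧ κ.1 * ps.prod ∈ Icc 1 X ∧ rl z (κ.1 * ps.prod) = ps ∧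
      key (κ.1 * ps.prod) = κ := by
    intro κ hκ ps hps
    obtain ⟨p1, p2, p3, p4, p5, p6, p7, p8, p9, p10, p11⟩ := hprop κ hκ
    have hF := (mem_TT _ _).mp hps
    obtain ⟨k1, k2, k3, k4, k5⟩ := key_tuple hl p1 p3 hF p5 p7
    refine ⟨k1, p11 ps hF, ?_, k3, ?_⟩
    · rw [mem_Icc]
      refine ⟨Nat.one_le_iff_ne_zero.mpr k1.ne_zero, ?_⟩
      have : ((κ.1 * ps.prod : ℕ) : ℝ) ≤ X := by
        rw [Nat.cast_mul]
        exact (mul_le_mul_of_nonneg_left (tuple_le hl hF) (by positivity)).trans p10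
      exact_mod_cast this
    · show (smp z _, ks l z _) = κ
      rw [k4, k5]
  have hCnt : ∑ κ ∈ 𝒦, (S.Cnt l κ.2 κ.1 : ℝ) ≤ Red.card := by
    have h2 : ∑ κ ∈ 𝒦, S.Cnt l κ.2 κ.1 ≤
        ∑ κ ∈ 𝒦, ∑ d ∈ Red.filter (fun d => key d = κ), 1 := by
      refine sum_le_sum fun κ hκ => ?_
      rw [cnt_eq, ← card_eq_sum_ones]
      refine card_le_card_of_injOn (fun ps => κ.1 * ps.prod) ?_ ?_
      · intro ps hps
        rw [Finset.mem_coe, mem_filter] at hps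
        obtain ⟨a1, a2, a3⟩ := hps
        obtain ⟨c1, c2, c3, c4, c5⟩ := hcell κ hκ ps a1
        rw [Finset.mem_coe, mem_filter, hRed, mem_filter, Den, mem_filter]
        exact ⟨⟨⟨c3, c1, c2, a2⟩, a3⟩, c5⟩
      · intro ps hps qs hqs h
        rw [Finset.mem_coe, mem_filter] at hps hqs
        have h' : κ.1 * ps.prod = κ.1 * qs.prod := h
        rw [← (hcell κ hκ ps hps.1).2.2.2.1, ← (hcell κ hκ qs hqs.1).2.2.2.1, h']
    have h3 := h2.trans (sum_fiber_le Red 𝒦 key (fun _ => 1))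
    rw [← card_eq_sum_ones] at h3
    exact_mod_cast h3
  have hEx : ∑ κ ∈ 𝒦, (ExW l δ κ.2 κ.1 : ℝ) ≤ BadS l δ z X := by
    have h2 : ∑ κ ∈ 𝒦, ExW l δ κ.2 κ.1 ≤
        ∑ κ ∈ 𝒦, ∑ d ∈ Od.filter (fun d => key d = κ), BadN l δ z d := by
      refine sum_le_sum fun κ hκ => ?_
      obtain ⟨p1, p2, p3, p4, p5, p6, p7, p8, p9, p10, p11⟩ := hprop κ hκ
      rw [exw_eq]
      calc ∑ ps ∈ TT l κ.2, wt l δ κ.2 κ.1 ps
          ≤ ∑ ps ∈ TT l κ.2, BadN l δ z (κ.1 * ps.prod) :=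
            sum_le_sum fun ps hps => wt_le hl δ p1 p3 ((mem_TT _ _).mp hps) p5 p7
        _ = ∑ d ∈ (TT l κ.2).image (fun ps => κ.1 * ps.prod), BadN l δ z d := by
            rw [sum_image]
            intro ps hps qs hqs h
            have h' : κ.1 * ps.prod = κ.1 * qs.prod := h
            rw [← (hcell κ hκ ps hps).2.2.2.1, ← (hcell κ hκ qs hqs).2.2.2.1, h']
        _ ≤ _ := by
            refine sum_le_sum_of_subset fun d hd => ?_
            rw [mem_image] at hd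
            obtain ⟨ps, hps, rfl⟩ := hd
            obtain ⟨c1, c2, c3, c4, c5⟩ := hcell κ hκ ps hps
            rw [mem_filter, hOd, mem_filter]
            refine ⟨⟨c3, c1, ?_⟩, c5⟩
            rw [Nat.odd_iff]; omega
    have h3 := h2.trans (sum_fiber_le Od 𝒦 key (fun d => BadN l δ z d))
    unfold BadS
    have h4 : ((∑ κ ∈ 𝒦, ExW l δ κ.2 κ.1 : ℕ) : ℝ) ≤ ((∑ d ∈ Od, BadN l δ z d : ℕ) : ℝ) := by
      exact_mod_cast h3
    push_cast at h4
    refine h4.trans (le_of_eq ?_)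
    rw [hOd]
  have hsum : η₁ * ((1 - δ) ^ T / (1 + δ)) * ∑ κ ∈ 𝒦, (S.Tot l κ.2 κ.1 : ℝ) ≤
      ∑ κ ∈ 𝒦, (S.Cnt l κ.2 κ.1 : ℝ) + 2 * ∑ κ ∈ 𝒦, (ExW l δ κ.2 κ.1 : ℝ) := by
    rw [mul_sum, mul_sum, ← sum_add_distrib]
    refine sum_le_sum fun κ hκ => ?_
    obtain ⟨p1, p2, p3, p4, p5, p6, p7, p8, p9, p10, p11⟩ := hprop κ hκ
    exact cell_ineq hl h0 h1 he he1 hC p4 p5 p6
      (fun b hb => h5.trans (pow_le_pow_right₀ hl.le (p7 b hb))) p1 p2
      (fun b hb p hp => (p3 p hp).trans (pow_le_pow_right₀ hl.le (p7 b hb))) p8 p9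
  have hc0 : 0 ≤ η₁ * ((1 - δ) ^ T / (1 + δ)) := by
    have : (0 : ℝ) < 1 - δ := by linarith
    positivity
  calc η₁ * ((1 - δ) ^ T / (1 + δ)) * (Reg.card : ℝ)
      ≤ η₁ * ((1 - δ) ^ T / (1 + δ)) * ∑ κ ∈ 𝒦, (S.Tot l κ.2 κ.1 : ℝ) :=
        mul_le_mul_of_nonneg_left hTot hc0
    _ ≤ _ := hsum
    _ ≤ (Red.card : ℝ) + 2 * BadS l δ z X := by linarith

end Vale.Agent.P017.R3.H420
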