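import Vale.Agent.P017.R3.H420.Asm3

/-!
# P017, density project: criterion of regularity
-/

open Finset

namespace Vale.Agent.P017.R3.H420

open Vale.Agent.P017.R2.H985 (PF)

/-- the elements of a sorted list which have more than `k` larger elements are in the beginning -/
theorem mem_take_of_card {L : List ℕ} (hL : L.Pairwise (· < ·)) {k p : ℕ} (hp : p ∈ L)
    (hk : k + 1 ≤ (L.toFinset.filter (fun q => p < q)).card) :
    p ∈ L.take (L.length - 1 - k) := by
  classical
  by_contra hcon
  have hsplit := List.take_append_drop (L.length - 1 - k) L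
  have hpd : p ∈ L.drop (L.length - 1 - k) := by
    rw [← hsplit, List.mem_append] at hp
    exact hp.resolve_left hcon
  have hpw : (L.take (L.length - 1 - k) ++ L.drop (L.length - 1 - k)).Pairwise (· < ·) := by
    rw [hsplit]; exact hL
  rw [List.pairwise_append] at hpw
  have hsub : L.toFinset.filter (fun q => p < q) ⊆
      (L.drop (L.length - 1 - k)).toFinset.erase p := by
    intro q hq
    rw [mem_filter, List.mem_toFinset] at hq
    rw [mem_erase, List.mem_toFinset]
    refine ⟨by omega, ?_⟩
    have h1 := hq.1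
    rw [← hsplit, List.mem_append] at h1
    rcases h1 with h1 | h1
    · have := hpw.2.2 q h1 p hpd
      omega
    · exact h1
  have h2 := card_le_card hsub
  rw [card_erase_of_mem (List.mem_toFinset.mpr hpd)] at h2
  have h3 : (L.drop (L.length - 1 - k)).toFinset.card ≤ L.length - (L.length - 1 - k) := by
    refine (List.toFinset_card_le _).trans ?_
    rw [List.length_drop]
  have h4 : (L.toFinset.filter (fun q => p < q)).card ≤ L.length :=
    (card_filter_le _ _).trans (List.toFinset_card_le _)
  have h5 : (L.toFinset.filter (fun q => p < q)).card < L.length ∨ k + 1 < L.length ∨ True := by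
    tauto
  omega

theorem eps_mod (p : ℕ) : eps (p % 4) = if p % 4 = 3 then 1 else 0 := by
  unfold eps
  rw [Nat.mod_mod]

/-- number of primes `3 mod 4` at the beginning -/
theorem count_take {l z : ℝ} {d k h : ℕ} {P Q : Finset ℕ}
    (hP : ∀ p ∈ P, p ∈ rl z d ∧ p % 4 = 3) (hQ : ∀ q ∈ Q, q ∈ rl z d)
    (hPQ : ∀ p ∈ P, ∀ q ∈ Q, p < q) (hk : k + 1 ≤ Q.card) (hh : h ≤ P.card) :
    h ≤ (((ks l z d).dropLast.map (fun c => eps c.2)).take
      (((ks l z d).dropLast.map (fun c => eps c.2)).length - k)).count 1 := by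
  classical
  have hL : (rl z d).Pairwise (· < ·) := by
    unfold rl
    exact (Finset.sortedLT_sort _).pairwise
  have e1 : ((ks l z d).dropLast.map (fun c => eps c.2)).take
      (((ks l z d).dropLast.map (fun c => eps c.2)).length - k) =
      ((rl z d).take ((rl z d).length - 1 - k)).map (fun p => eps (p % 4)) := by
    rw [List.length_map, List.length_dropLast, ← List.map_take, List.dropLast_eq_take,
      List.take_take, ks, List.length_map, ← List.map_take, List.map_map]
    have : min ((rl z d).length - 1 - k) ((rl z d).length - 1) = (rl z d).length - 1 - k := by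
      omega
    rw [this]
    rfl
  rw [e1, List.count_eq_countP, List.countP_map]
  have hnd : ((rl z d).take ((rl z d).length - 1 - k)).Nodup :=
    (hL.imp (fun h => h.ne)).sublist (List.take_sublist _ _)
  have e2 : P ⊆ (((rl z d).take ((rl z d).length - 1 - k)).filter
      ((fun x => x == 1) ∘ fun p => eps (p % 4))).toFinset := by
    intro p hp
    rw [List.mem_toFinset, List.mem_filter]
    refine ⟨mem_take_of_card hL (hP p hp).1 (hk.trans (card_le_card fun q hq => ?_)), ?_⟩
    · rw [mem_filter, List.mem_toFinset]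
      exact ⟨hQ q hq, hPQ p hp q hq⟩
    · simp [eps_mod, (hP p hp).2]
  have e3 := card_le_card e2
  rw [List.toFinset_card_of_nodup (hnd.filter _), ← List.countP_eq_length_filter] at e3
  exact hh.trans e3

theorem bi_mono {l : ℝ} (hl : 1 < l) {p q : ℕ} (hp : 1 < p) (hpq : p ≤ q) : bi l p ≤ bi l q := by
  have h1 := bi_spec hl hp
  have h2 := bi_spec hl (lt_of_lt_of_le hp hpq)
  have : l ^ bi l p < l ^ (bi l q + 1) :=
    lt_of_lt_of_le h1.1 ((Nat.cast_le.mpr hpq).trans h2.2)
  have := (pow_lt_pow_iff_right₀ hl).mp this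
  omega

/-- regularity criterion -/
theorem regD_of {S : Sys} {l : ℝ} (hl : 1 < l) (hl2 : l ≤ 2) {J T : ℕ} {η₁ a : ℝ} {X d : ℕ}
    (hX : 1 < X) (ha : 0 < a) (hz : (X : ℝ) ^ a ≤ l ^ J) (hT : 1 / a ≤ T) (hd1 : 1 ≤ d)
    (hdX : (d : ℝ) * l ^ T ≤ X) (hsq : Squarefree d)
    (hsame : ¬ ∃ p q : ℕ, p.Prime ∧ q.Prime ∧ (X : ℝ) ^ a < p ∧ p < q ∧ q ≤ 2 * p ∧ p * q ∣ d)
    (hne : rl (l ^ J) d ≠ [])
    (hff : η₁ ≤ S.f ((ks l (l ^ J) d).dropLast.map (fun c => eps c.2)) (smp (l ^ J) d)) :
    RegD S l J T η₁ X d := by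
  have hL : (rl (l ^ J) d).Pairwise (· < ·) := by
    unfold rl
    exact (Finset.sortedLT_sort _).pairwise
  have hpr : ∀ p ∈ rl (l ^ J) d, p.Prime ∧ p ∣ d ∧ l ^ J < (p : ℝ) := fun p hp => by
    obtain ⟨h1, h2⟩ := mem_rl.mp hp
    exact ⟨Nat.prime_of_mem_primeFactors h1, Nat.dvd_of_mem_primeFactors h1, h2⟩
  have hX' : (1 : ℝ) < X := by exact_mod_cast hX
  have hlen : (rl (l ^ J) d).length ≤ T := by
    set t := (rl (l ^ J) d).length with ht
    have h1 : (l ^ J) ^ t ≤ ((rl (l ^ J) d).prod : ℝ) := by
      have : ∀ L : List ℕ, (∀ p ∈ L, l ^ J < (p : ℝ)) → (l ^ J) ^ L.length ≤ (L.prod : ℝ) := by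
        intro L
        induction L with
        | nil => intro _; simp
        | cons p L ih =>
          intro h
          rw [List.length_cons, pow_succ, List.prod_cons, Nat.cast_mul, mul_comm]
          exact mul_le_mul (h p List.mem_cons_self).le
            (ih fun q hq => h q (List.mem_cons_of_mem _ hq)) (by positivity) (by positivity)
      exact this _ fun p hp => (hpr p hp).2.2
    have h2 : ((rl (l ^ J) d).prod : ℝ) ≤ X := by
      have h3 : (rl (l ^ J) d).prod ≤ d := Nat.le_of_dvd hd1 ⟨smp (l ^ J) d, by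
        rw [mul_comm]; exact (smp_mul hsq).symm⟩
      have h4 : (d : ℝ) ≤ X := by
        have : (1 : ℝ) ≤ l ^ T := one_le_pow₀ hl.le
        have hd0 : (0 : ℝ) ≤ d := by positivity
        nlinarith
      exact le_trans (by exact_mod_cast h3) h4
    have h3 : ((X : ℝ) ^ a) ^ t ≤ (X : ℝ) :=
      (pow_le_pow_left₀ (by positivity) hz t).trans (h1.trans h2)
    rw [← Real.rpow_natCast, ← Real.rpow_mul (by positivity)] at h3
    have h4 : (X : ℝ) ^ (a * (t : ℝ)) ≤ (X : ℝ) ^ (1 : ℝ) := by rwa [Real.rpow_one]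
    have h5 := (Real.rpow_le_rpow_left_iff hX').mp h4
    have h6 : (t : ℝ) ≤ 1 / a := by
      rw [le_div_iff₀ ha]; linarith
    exact_mod_cast h6.trans hT
  refine ⟨?_, ?_, ?_, ?_, hff⟩
  · -- distinct boxes
    rw [ks, List.map_map, List.pairwise_map]
    refine hL.imp_of_mem fun {p q} hp hq hpq => ?_
    show bi l p < bi l q
    refine lt_of_le_of_ne (bi_mono hl (hpr p hp).1.one_lt hpq.le) fun he => hsame ?_
    have h1 := bi_spec hl (hpr p hp).1.one_lt
    have h2 := bi_spec hl (hpr q hq).1.one_lt
    refine ⟨p, q, (hpr p hp).1, (hpr q hq).1, lt_of_le_of_lt hz (hpr p hp).2.2, hpq, ?_, ?_⟩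
    · have h3 : (q : ℝ) ≤ 2 * p := by
        calc (q : ℝ) ≤ l ^ (bi l q + 1) := h2.2
          _ = l * l ^ bi l p := by rw [← he, pow_succ]; ring
          _ ≤ 2 * p := mul_le_mul hl2 h1.1.le (by positivity) (by norm_num)
      exact_mod_cast h3
    · exact Nat.Coprime.mul_dvd_of_dvd_of_dvd
        ((Nat.coprime_primes (hpr p hp).1 (hpr q hq).1).mpr hpq.ne) (hpr p hp).2.1 (hpr q hq).2.1
  · intro h
    rw [ks, List.map_eq_nil_iff] at h
    exact hne h
  · rw [ks, List.length_map]; exact hlen
  · -- the product of the right ends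
    have h1 : ∀ L : List ℕ, (∀ p ∈ L, p.Prime) →
        (((L.map fun p => (bi l p, p % 4)).map (fun b => l ^ (b.1 + 1))).prod : ℝ) ≤
          l ^ L.length * L.prod := by
      intro L
      induction L with
      | nil => intro _; simp
      | cons p L ih =>
        intro h
        have hp := bi_spec hl (h p List.mem_cons_self).one_lt
        rw [List.map_cons, List.map_cons, List.prod_cons, List.length_cons, List.prod_cons,
          Nat.cast_mul]
        have h2 : l ^ (bi l p + 1) ≤ l * p := by
          rw [pow_succ, mul_comm]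
          exact mul_le_mul_of_nonneg_left hp.1.le (by positivity)
        calc l ^ (bi l p + 1) * _ ≤ (l * p) * (l ^ L.length * L.prod) :=
              mul_le_mul h2 (ih fun q hq => h q (List.mem_cons_of_mem _ hq))
                (List.prod_nonneg (by
                  intro x hx
                  simp only [List.map_map, List.mem_map] at hx
                  obtain ⟨q, -, rfl⟩ := hx
                  show (0 : ℝ) ≤ l ^ (bi l q + 1)
                  positivity)) (by positivity)
          _ = _ := by ring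
    have h2 := h1 (rl (l ^ J) d) (fun p hp => (hpr p hp).1)
    calc (smp (l ^ J) d : ℝ) * ((ks l (l ^ J) d).map (fun b => l ^ (b.1 + 1))).prod
        ≤ (smp (l ^ J) d : ℝ) * (l ^ (rl (l ^ J) d).length * (rl (l ^ J) d).prod) :=
          mul_le_mul_of_nonneg_left h2 (by positivity)
      _ = l ^ (rl (l ^ J) d).length * ((smp (l ^ J) d : ℝ) * (rl (l ^ J) d).prod) := by ring
      _ = l ^ (rl (l ^ J) d).length * d := by
          rw [← Nat.cast_mul, smp_mul hsq]
      _ ≤ l ^ T * d := mul_le_mul_of_nonneg_right (pow_le_pow_right₀ hl.le hlen) (by positivity)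
      _ ≤ X := by rw [mul_comm]; exact hdX

end Vale.Agent.P017.R3.H420
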