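import Vale.Agent.P017.R3.H420.Asm4

/-!
# P017, density project: choice of the parameters
-/

open Finset

namespace Vale.Agent.P017.R3.H420

open Vale.Agent.P017.R2.H985 (PF)

theorem card_top {X : ℕ} {δ₀ c : ℝ} (h0 : 0 < δ₀) (h1 : δ₀ < 1) (hc : (1 - δ₀) * c ≤ 1) : (((Icc 1 X).filter (fun d : ℕ => (X : ℝ) < d * c)).card : ℝ) ≤ δ₀ * X + 1 := by
  classical
  have hX0 : (0 : ℝ) ≤ X := by positivity
  have hsub : (Icc 1 X).filter (fun d : ℕ => (X : ℝ) < d * c) ⊆ Ioc ⌊X * (1 - δ₀)⌋₊ X := by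
    intro d hd
    rw [mem_filter, mem_Icc] at hd
    rw [mem_Ioc]
    refine ⟨?_, hd.1.2⟩
    rw [Nat.floor_lt (mul_nonneg hX0 (by linarith))]
    have h2 : (X : ℝ) * (1 - δ₀) < d * c * (1 - δ₀) :=
      mul_lt_mul_of_pos_right hd.2 (by linarith)
    have h3 : (d : ℝ) * c * (1 - δ₀) ≤ d := by
      have : (d : ℝ) * ((1 - δ₀) * c) ≤ d * 1 := mul_le_mul_of_nonneg_left hc (by positivity)
      linarith
    linarith
  have h2 : ((Icc 1 X).filter (fun d : ℕ => (X : ℝ) < d * c)).card ≤ X - ⌊X * (1 - δ₀)⌋₊ := by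
    refine (card_le_card hsub).trans ?_
    rw [Nat.card_Ioc]
  have h3 : ⌊X * (1 - δ₀)⌋₊ ≤ X := by
    refine Nat.floor_le_of_le ?_
    nlinarith
  have h4 : (((Icc 1 X).filter (fun d : ℕ => (X : ℝ) < d * c)).card : ℝ) ≤
      X - (⌊X * (1 - δ₀)⌋₊ : ℝ) := by
    rw [← Nat.cast_sub h3]
    exact_mod_cast h2
  have h5 := Nat.lt_floor_add_one (X * (1 - δ₀))
  linarith

theorem exists_J {l y : ℝ} (hl : 1 < l) (hl2 : l ≤ 2) (hy : 1 ≤ y) :
    ∃ J : ℕ, l ^ J ≤ y ∧ y ≤ 2 * l ^ J := by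
  have hy0 : 0 < y := by linarith
  have h0 : 0 ≤ Real.logb l y := Real.logb_nonneg hl hy
  refine ⟨⌊Real.logb l y⌋₊, ?_, ?_⟩
  · have := Nat.floor_le h0
    rw [Real.le_logb_iff_rpow_le hl hy0, Real.rpow_natCast] at this
    exact this
  · have h1 := Nat.lt_floor_add_one (Real.logb l y)
    have h2 : Real.logb l y < ((⌊Real.logb l y⌋₊ + 1 : ℕ) : ℝ) := by push_cast; exact h1
    rw [Real.logb_lt_iff_lt_rpow hl hy0, Real.rpow_natCast, pow_succ] at h2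
    have h3 : (0 : ℝ) < l ^ ⌊Real.logb l y⌋₊ := by positivity
    nlinarith

theorem stmtB {S : Sys} (hTK : StmtTK) (hSm : StmtSmooth) (hSa : StmtSame) (hCk : StmtCk)
    (hEx : StmtEx) (hRM : S.StmtRM) : StmtB S := by
  classical
  intro η₁ δ he he1 h0 h1
  set δ₀ : ℝ := δ / 8 with hδ₀
  have hd0 : 0 < δ₀ := by rw [hδ₀]; linarith
  have hd1 : δ₀ < 1 := by rw [hδ₀]; linarith
  obtain ⟨U, hU1, hU⟩ := hSm δ₀ hd0
  obtain ⟨B, hB⟩ := hCk δ₀ U hd0
  obtain ⟨h, k, hhk⟩ := hRM η₁ B he1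
  obtain ⟨b₁, hb10, hb11, X₁, hX₁⟩ := hTK (k + 1) δ₀ (1 / 4) hd0 (by norm_num) le_rfl
  set b : ℝ := min b₁ (1 / (2 * U + 2)) with hb
  have hUp : (0 : ℝ) < 2 * U + 2 := by positivity
  have hb0 : 0 < b := lt_min hb10 (by positivity)
  have hb4 : b ≤ 1 / 4 := (min_le_left _ _).trans hb11.le
  obtain ⟨b₂, hb20, hb21, X₂, hX₂⟩ := hTK h δ₀ b hd0 hb0 hb4
  have hb2b1 : b₂ < b₁ := lt_of_lt_of_le hb21 (min_le_left _ _)
  have hb2U : b₂ * (2 * U + 2) ≤ 1 := by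
    have : b₂ ≤ 1 / (2 * U + 2) := hb21.le.trans (min_le_right _ _)
    rwa [le_div_iff₀ hUp] at this
  set a : ℝ := b₂ / 2 with ha
  have ha0 : 0 < a := by rw [ha]; linarith
  set T : ℕ := ⌈1 / a⌉₊ with hT
  have hTa : 1 / a ≤ T := Nat.le_ceil _
  have hT0 : (0 : ℝ) ≤ T := by positivity
  set x : ℝ := δ₀ / (T + 1) with hx
  have hx0 : 0 < x := by rw [hx]; positivity
  have hx1 : x ≤ δ₀ := by rw [hx]; exact div_le_self hd0.le (by linarith)
  have hxT : x * T ≤ δ₀ := by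
    rw [hx, div_mul_eq_mul_div, div_le_iff₀ (by linarith)]
    nlinarith
  set l : ℝ := 1 + x with hl
  have hl1 : 1 < l := by rw [hl]; linarith
  have hl2 : l ≤ 2 := by rw [hl]; linarith
  have hlT : (1 - δ₀) * l ^ T ≤ 1 := by
    have e1 : l ^ T ≤ Real.exp δ₀ := by
      calc l ^ T ≤ (Real.exp x) ^ T := by
            refine pow_le_pow_left₀ (by linarith) ?_ T
            rw [hl, add_comm]; exact Real.add_one_le_exp x
        _ = Real.exp (T * x) := by rw [← Real.exp_nat_mul]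
        _ ≤ Real.exp δ₀ := Real.exp_le_exp.mpr (by linarith)
    have e2 : 1 - δ₀ ≤ Real.exp (-δ₀) := Real.one_sub_le_exp_neg δ₀
    calc (1 - δ₀) * l ^ T ≤ Real.exp (-δ₀) * Real.exp δ₀ :=
          mul_le_mul e2 e1 (by positivity) (Real.exp_pos _).le
      _ = 1 := by rw [← Real.exp_add]; simp
  set δ' : ℝ := δ / (T + 2) with hδ'
  have hδ'0 : 0 < δ' := by rw [hδ']; positivity
  have hδ'1 : δ' < 1 := by
    rw [hδ', div_lt_one (by linarith)]; linarith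
  have hδ'T : (T + 1) * δ' ≤ δ := by
    rw [hδ', mul_div_assoc', div_le_iff₀ (by linarith)]
    nlinarith
  have hgood : 1 - δ ≤ (1 - δ') ^ T / (1 + δ') := by
    rw [le_div_iff₀ (by linarith)]
    have e1 := one_add_mul_le_pow (a := -δ') (by linarith) T
    have e2 : (1 + -δ') ^ T = (1 - δ') ^ T := by rw [← sub_eq_add_neg]
    rw [e2] at e1
    nlinarith
  obtain ⟨X₃, hX₃⟩ := hSa a δ₀ ha0 hd0
  obtain ⟨X₄, hX₄⟩ := hEx l hl1 hl2 a δ' δ ha0 hδ'0 h0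
  obtain ⟨X₅, hX₅⟩ : ∃ X₅ : ℕ, ∀ X : ℕ, X₅ ≤ X → (10 : ℝ) ≤ (X : ℝ) ^ a :=
    Filter.eventually_atTop.mp
      (((tendsto_rpow_atTop ha0).comp tendsto_natCast_atTop_atTop).eventually_ge_atTop 10)
  refine ⟨l, δ', T, hl1, hl2, hδ'0, hδ'1, hgood,
    max (max (max X₁ X₂) (max X₃ X₄)) (max X₅ (max 2 ⌈1 / δ₀⌉₊)), fun X hX => ?_⟩
  simp only [max_le_iff] at hX
  obtain ⟨⟨⟨g1, g2⟩, g3, g4⟩, g5, g6, g7⟩ := hX
  have hX1 : (1 : ℝ) < X := by
    have : (2 : ℝ) ≤ X := by exact_mod_cast g6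
    linarith
  have hX0 : (0 : ℝ) < X := by linarith
  have hXd : 1 ≤ δ₀ * X := by
    have e1 : 1 / δ₀ ≤ X := (Nat.le_ceil _).trans (by exact_mod_cast g7)
    rw [div_le_iff₀ hd0] at e1
    linarith
  have h10 := hX₅ X g5
  have hy : (X : ℝ) ^ b₂ = (X : ℝ) ^ a * (X : ℝ) ^ a := by
    rw [← Real.rpow_add hX0, ha]; congr 1; ring
  have hw : 10 * (X : ℝ) ^ a ≤ (X : ℝ) ^ a * (X : ℝ) ^ a :=
    mul_le_mul_of_nonneg_right h10 (by positivity)
  have hy1 : 1 ≤ (X : ℝ) ^ b₂ := by rw [hy]; linarith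
  obtain ⟨J, hJ1, hJ2⟩ := exists_J hl1 hl2 hy1
  have hJ3 : 5 * (X : ℝ) ^ a ≤ l ^ J := by rw [hy] at hJ2; linarith
  have hJa : (X : ℝ) ^ a ≤ l ^ J := by linarith
  have hJ5 : 5 ≤ l ^ J := by linarith
  have hz2 : 2 ≤ l ^ J := by linarith
  have hzU : (l ^ J) ^ (2 * U + 2) ≤ (X : ℝ) := by
    calc (l ^ J) ^ (2 * U + 2) ≤ ((X : ℝ) ^ b₂) ^ (2 * U + 2) :=
          pow_le_pow_left₀ (by positivity) hJ1 _
      _ = (X : ℝ) ^ (b₂ * (2 * U + 2)) := by
          rw [← Real.rpow_natCast, ← Real.rpow_mul hX0.le]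
          push_cast
          rfl
      _ ≤ (X : ℝ) ^ (1 : ℝ) := Real.rpow_le_rpow_of_exponent_le hX1.le hb2U
      _ = X := Real.rpow_one _
  refine ⟨J, hJ5, ?_, ?_⟩
  · -- irregular `d`
    have b1 := hU (l ^ J) hz2 X
    have b2 := hB (l ^ J) hz2 X hzU
    have b3 := hX₁ X g1
    have b4 := hX₂ X g2
    have b5 := hX₃ X g3
    have b6 := card_top (X := X) hd0 hd1 hlT
    set A1 := (Icc 1 X).filter (fun d => Squarefree d ∧ (l ^ J) ^ U < smp (l ^ J) d) with hA1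
    set A2 := (Icc 1 X).filter (fun d => Squarefree d ∧ Odd d ∧
      (smp (l ^ J) d : ℝ) ≤ (l ^ J) ^ U ∧ B < avg (fun u : PF (smp (l ^ J) d) → ZMod 2 =>
      (2 : ℝ) ^ ck (AA (smp (l ^ J) d) + Matrix.diagonal u))) with hA2
    set A3 := (Icc 1 X).filter (fun d => (d.primeFactors.filter (fun p : ℕ => p % 4 = 3 ∧
      (X : ℝ) ^ b₁ < p ∧ (p : ℝ) ≤ (X : ℝ) ^ (1 / 4 : ℝ))).card < k + 1) with hA3
    set A4 := (Icc 1 X).filter (fun d => (d.primeFactors.filter (fun p : ℕ => p % 4 = 3 ∧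
      (X : ℝ) ^ b₂ < p ∧ (p : ℝ) ≤ (X : ℝ) ^ b)).card < h) with hA4
    set A5 := (Icc 1 X).filter (fun d => ∃ p q : ℕ, p.Prime ∧ q.Prime ∧ (X : ℝ) ^ a < p ∧ p < q ∧
      q ≤ 2 * p ∧ p * q ∣ d) with hA5
    set A6 := (Icc 1 X).filter (fun d : ℕ => (X : ℝ) < d * l ^ T) with hA6
    have hsub : (Den S X).filter (fun d => ¬ RegD S l J T η₁ X d) ⊆
        A1 ∪ A2 ∪ A3 ∪ A4 ∪ A5 ∪ A6 := by
      intro d hd
      rw [mem_filter, Den, mem_filter] at hd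
      obtain ⟨⟨hdI, hsq, hd4, hOK⟩, hnr⟩ := hd
      by_contra hcon
      simp only [mem_union, not_or] at hcon
      obtain ⟨⟨⟨⟨⟨n1, n2⟩, n3⟩, n4⟩, n5⟩, n6⟩ := hcon
      refine hnr ?_
      have hodd : Odd d := by rw [Nat.odd_iff]; omega
      have m1 : (smp (l ^ J) d : ℝ) ≤ (l ^ J) ^ U := by
        by_contra hc
        exact n1 (mem_filter.mpr ⟨hdI, hsq, not_le.mp hc⟩)
      have m2 : avg (fun u : PF (smp (l ^ J) d) → ZMod 2 =>
          (2 : ℝ) ^ ck (AA (smp (l ^ J) d) + Matrix.diagonal u)) ≤ B := by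
        by_contra hc
        exact n2 (mem_filter.mpr ⟨hdI, hsq, hodd, m1, not_le.mp hc⟩)
      have m3 : k + 1 ≤ (d.primeFactors.filter (fun p : ℕ => p % 4 = 3 ∧
          (X : ℝ) ^ b₁ < p ∧ (p : ℝ) ≤ (X : ℝ) ^ (1 / 4 : ℝ))).card := by
        by_contra hc
        exact n3 (mem_filter.mpr ⟨hdI, not_le.mp hc⟩)
      have m4 : h ≤ (d.primeFactors.filter (fun p : ℕ => p % 4 = 3 ∧
          (X : ℝ) ^ b₂ < p ∧ (p : ℝ) ≤ (X : ℝ) ^ b)).card := by
        by_contra hc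
        exact n4 (mem_filter.mpr ⟨hdI, not_le.mp hc⟩)
      have m6 : (d : ℝ) * l ^ T ≤ X := by
        by_contra hc
        exact n6 (mem_filter.mpr ⟨hdI, not_le.mp hc⟩)
      have hQ : ∀ q ∈ d.primeFactors.filter (fun p : ℕ => p % 4 = 3 ∧
          (X : ℝ) ^ b₁ < p ∧ (p : ℝ) ≤ (X : ℝ) ^ (1 / 4 : ℝ)), q ∈ rl (l ^ J) d := by
        intro q hq
        rw [mem_filter] at hq
        refine mem_rl.mpr ⟨hq.1, ?_⟩
        calc l ^ J ≤ (X : ℝ) ^ b₂ := hJ1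
          _ ≤ (X : ℝ) ^ b₁ := Real.rpow_le_rpow_of_exponent_le hX1.le hb2b1.le
          _ < q := hq.2.2.1
      refine regD_of hl1 hl2 (by exact_mod_cast hX1) ha0 hJa hTa (mem_Icc.mp hdI).1 m6 hsq
        (fun hc => n5 (mem_filter.mpr ⟨hdI, hc⟩)) ?_ ?_
      · intro hc
        have : 0 < (d.primeFactors.filter (fun p : ℕ => p % 4 = 3 ∧
          (X : ℝ) ^ b₁ < p ∧ (p : ℝ) ≤ (X : ℝ) ^ (1 / 4 : ℝ))).card := by omega
        obtain ⟨q, hq⟩ := card_pos.mp this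
        have := hQ q hq
        rw [hc] at this
        exact absurd this List.not_mem_nil
      · refine hhk _ _ d (hsq.squarefree_of_dvd (smp_dvd hsq)) (hodd.of_dvd_nat (smp_dvd hsq))
          (smp_dvd hsq) hOK ?_ m2
        refine count_take (P := d.primeFactors.filter (fun p : ℕ => p % 4 = 3 ∧
          (X : ℝ) ^ b₂ < p ∧ (p : ℝ) ≤ (X : ℝ) ^ b)) ?_ hQ ?_ m3 m4
        · intro p hp
          rw [mem_filter] at hp
          exact ⟨mem_rl.mpr ⟨hp.1, lt_of_le_of_lt hJ1 hp.2.2.1⟩, hp.2.1⟩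
        · intro p hp q hq
          rw [mem_filter] at hp hq
          have : (p : ℝ) < q := by
            calc (p : ℝ) ≤ (X : ℝ) ^ b := hp.2.2.2
              _ ≤ (X : ℝ) ^ b₁ := Real.rpow_le_rpow_of_exponent_le hX1.le (min_le_left _ _)
              _ < q := hq.2.2.1
          exact_mod_cast this
    have hcard : ((Den S X).filter (fun d => ¬ RegD S l J T η₁ X d)).card ≤
        A1.card + A2.card + A3.card + A4.card + A5.card + A6.card := by
      refine (card_le_card hsub).trans ?_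
      refine (card_union_le _ _).trans (Nat.add_le_add_right ?_ _)
      refine (card_union_le _ _).trans (Nat.add_le_add_right ?_ _)
      refine (card_union_le _ _).trans (Nat.add_le_add_right ?_ _)
      refine (card_union_le _ _).trans (Nat.add_le_add_right ?_ _)
      exact card_union_le _ _
    have hcard' : (((Den S X).filter (fun d => ¬ RegD S l J T η₁ X d)).card : ℝ) ≤
        A1.card + A2.card + A3.card + A4.card + A5.card + A6.card := by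
      exact_mod_cast hcard
    have e8 : δ * X = 8 * (δ₀ * X) := by rw [hδ₀]; ring
    linarith
  · -- bad prefixes
    refine le_trans ?_ (hX₄ X g4)
    unfold BadS
    refine sum_le_sum fun d _ => ?_
    unfold BadN
    norm_cast
    refine card_le_card fun q hq => ?_
    rw [mem_filter] at hq ⊢
    exact ⟨hq.1, lt_of_le_of_lt hJa hq.2.1, hq.2.2⟩

/-- (B13') -/
theorem stmtAsmGen : StmtAsmGen := fun hTK hSm hSa hCk hEx _ _ hCell hRM =>
  stmtDens_of (stmtA hCell) (stmtB hTK hSm hSa hCk hEx hRM)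

end Vale.Agent.P017.R3.H420
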